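import Vale.Agent.P300.H14.L2.Defs
import Vale.Agent.P268.Hol

/-!
# P300 / PROJ : calculus along the sheets (port of `P282/Bd3/B1`)
-/

set_option autoImplicit false


section

open MeasureTheory Filter Topology
open scoped ENNReal NNReal ComplexConjugate Classical

namespace Vale.Agent.P300.H14L2

variable {n : ℕ} {f g : (Fin n → ℂ) → ℂ} {z : Fin n → ℂ} {j k : Fin n}

theorem dz_congr (h : f =ᶠ[𝓝 z] g) : dz j f z = dz j g z := by
  rw [dz, dz, h.fderiv_eq]

theorem dzb_congr (h : f =ᶠ[𝓝 z] g) : dzb j f z = dzb j g z := by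
  rw [dzb, dzb, h.fderiv_eq]

theorem dz_const (c : ℂ) : dz j (fun _ => c) z = 0 := by
  simp [dz]

theorem dzb_const (c : ℂ) : dzb j (fun _ => c) z = 0 := by
  simp [dzb]

theorem dz_add (hf : DifferentiableAt ℝ f z) (hg : DifferentiableAt ℝ g z) :
    dz j (fun z => f z + g z) z = dz j f z + dz j g z := by
  simp only [dz, fderiv_fun_add hf hg, add_apply]
  ring

theorem dzb_add (hf : DifferentiableAt ℝ f z) (hg : DifferentiableAt ℝ g z) :
    dzb j (fun z => f z + g z) z = dzb j f z + dzb j g z := by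
  simp only [dzb, fderiv_fun_add hf hg, add_apply]
  ring

theorem dz_sum {ι : Type*} (s : Finset ι) {f : ι → (Fin n → ℂ) → ℂ}
    (hf : ∀ i ∈ s, DifferentiableAt ℝ (f i) z) :
    dz j (fun z => ∑ i ∈ s, f i z) z = ∑ i ∈ s, dz j (f i) z := by
  simp only [dz, fderiv_fun_sum hf, sum_apply]
  rw [Finset.mul_sum, ← Finset.sum_sub_distrib, Finset.sum_div]

theorem dzb_sum {ι : Type*} (s : Finset ι) {f : ι → (Fin n → ℂ) → ℂ}
    (hf : ∀ i ∈ s, DifferentiableAt ℝ (f i) z) :
    dzb j (fun z => ∑ i ∈ s, f i z) z = ∑ i ∈ s, dzb j (f i) z := by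
  simp only [dzb, fderiv_fun_sum hf, sum_apply]
  rw [Finset.mul_sum, ← Finset.sum_add_distrib, Finset.sum_div]

theorem dz_mul (hf : DifferentiableAt ℝ f z) (hg : DifferentiableAt ℝ g z) :
    dz j (fun z => f z * g z) z = dz j f z * g z + f z * dz j g z := by
  simp only [dz, fderiv_fun_mul hf hg, add_apply,
    smul_apply, smul_eq_mul]
  ring

theorem dzb_mul (hf : DifferentiableAt ℝ f z) (hg : DifferentiableAt ℝ g z) :
    dzb j (fun z => f z * g z) z = dzb j f z * g z + f z * dzb j g z := by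
  simp only [dzb, fderiv_fun_mul hf hg, add_apply,
    smul_apply, smul_eq_mul]
  ring

theorem wirt_fderiv_conj_apply (v : Fin n → ℂ) :
    fderiv ℝ (fun z => conj (f z)) z v = conj (fderiv ℝ f z v) := by
  have h := ContinuousLinearEquiv.comp_fderiv (Complex.conjCLE) (f := f) (x := z)
  have h2 : (fun z => conj (f z)) = (Complex.conjCLE ∘ f) := by
    funext w; simp
  rw [h2, h]
  simp

theorem wirt_conj_two : conj (2 : ℂ) = 2 := Complex.conj_ofNat 2

theorem dz_conj : dz j (fun z => conj (f z)) z = conj (dzb j f z) := by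
  simp only [dz, dzb, wirt_fderiv_conj_apply, map_div₀, map_add, map_mul, Complex.conj_I, wirt_conj_two]
  ring

theorem dzb_conj : dzb j (fun z => conj (f z)) z = conj (dz j f z) := by
  simp only [dz, dzb, wirt_fderiv_conj_apply, map_div₀, map_sub, map_mul, Complex.conj_I, wirt_conj_two]
  ring

theorem wirt_fderiv_comp_real_apply {φ : ℝ → ℝ} {u : (Fin n → ℂ) → ℝ} (hu : DifferentiableAt ℝ u z)
    (hφ : DifferentiableAt ℝ φ (u z)) (v : Fin n → ℂ) :
    fderiv ℝ (fun z => ((φ (u z) : ℝ) : ℂ)) z v =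
      ((deriv φ (u z) : ℝ) : ℂ) * fderiv ℝ (fun z => (u z : ℂ)) z v := by
  have h1 : HasFDerivAt (fun z => (u z : ℂ)) (Complex.ofRealCLM.comp (fderiv ℝ u z)) z :=
    Complex.ofRealCLM.hasFDerivAt.comp z hu.hasFDerivAt
  have h2 : HasFDerivAt (fun z => φ (u z)) (deriv φ (u z) • fderiv ℝ u z) z :=
    hφ.hasDerivAt.comp_hasFDerivAt z hu.hasFDerivAt
  have h3 : HasFDerivAt (fun z => ((φ (u z) : ℝ) : ℂ))
      (Complex.ofRealCLM.comp (deriv φ (u z) • fderiv ℝ u z)) z :=
    Complex.ofRealCLM.hasFDerivAt.comp z h2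
  rw [h1.fderiv, h3.fderiv]
  simp

/-- Chain rule for a real function of a real function. -/
theorem dz_comp_real {φ : ℝ → ℝ} {u : (Fin n → ℂ) → ℝ} (hu : DifferentiableAt ℝ u z)
    (hφ : DifferentiableAt ℝ φ (u z)) :
    dz j (fun z => ((φ (u z) : ℝ) : ℂ)) z = ((deriv φ (u z) : ℝ) : ℂ) * dz j (fun z => (u z : ℂ)) z := by
  simp only [dz, wirt_fderiv_comp_real_apply hu hφ]
  ring

theorem dzb_comp_real {φ : ℝ → ℝ} {u : (Fin n → ℂ) → ℝ} (hu : DifferentiableAt ℝ u z)
    (hφ : DifferentiableAt ℝ φ (u z)) :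
    dzb j (fun z => ((φ (u z) : ℝ) : ℂ)) z =
      ((deriv φ (u z) : ℝ) : ℂ) * dzb j (fun z => (u z : ℂ)) z := by
  simp only [dzb, wirt_fderiv_comp_real_apply hu hφ]
  ring

theorem wirt_fderiv_real_of_complex (hf : DifferentiableAt ℂ f z) (v : Fin n → ℂ) :
    fderiv ℝ f z v = fderiv ℂ f z v := by
  have h := hf.hasFDerivAt.restrictScalars ℝ
  rw [h.fderiv]
  rfl

theorem wirt_single_I (j : Fin n) : (Pi.single j Complex.I : Fin n → ℂ) = Complex.I • Pi.single j 1 := by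
  rw [← Pi.single_smul]
  simp

theorem dzb_holo (hf : DifferentiableAt ℂ f z) : dzb j f z = 0 := by
  simp only [dzb, wirt_fderiv_real_of_complex hf, wirt_single_I, map_smul, smul_eq_mul]
  rw [← mul_assoc, Complex.I_mul_I]
  ring

theorem dz_holo (hf : DifferentiableAt ℂ f z) : dz j f z = fderiv ℂ f z (Pi.single j 1) := by
  simp only [dz, wirt_fderiv_real_of_complex hf, wirt_single_I, map_smul, smul_eq_mul]
  rw [← mul_assoc, Complex.I_mul_I]
  ring

theorem wirt_pi_decomp (v : Fin n → ℂ) :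
    v = ∑ j, ((v j).re • (Pi.single j 1 : Fin n → ℂ) + (v j).im • (Pi.single j Complex.I : Fin n → ℂ)) := by
  funext i
  simp only [Finset.sum_apply, Pi.add_apply, Pi.smul_apply]
  rw [Finset.sum_eq_single i]
  · simp only [Pi.single_eq_same, Complex.real_smul]
    rw [mul_one, Complex.re_add_im]
  · intro b _ hb
    simp [Pi.single_eq_of_ne (Ne.symm hb)]
  · intro h
    exact absurd (Finset.mem_univ i) h

/-- A real differentiable function with vanishing `∂̄` is complex differentiable. -/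
theorem holo_of_dzb {W : Set (Fin n → ℂ)} (hW : IsOpen W) (hf : DifferentiableOn ℝ f W)
    (h : ∀ z ∈ W, ∀ j, dzb j f z = 0) : DifferentiableOn ℂ f W := by
  intro z hz
  have hd : DifferentiableAt ℝ f z := (hf z hz).differentiableAt (hW.mem_nhds hz)
  set A := fderiv ℝ f z with hA
  have h1 : ∀ j, A (Pi.single j Complex.I) = Complex.I * A (Pi.single j 1) := by
    intro j
    have h2 := h z hz j
    rw [dzb, ← hA] at h2
    have h3 : A (Pi.single j 1) + Complex.I * A (Pi.single j Complex.I) = 0 := by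
      have := congrArg (fun t => t * 2) h2
      simpa using this
    have h4 : Complex.I * (A (Pi.single j 1) + Complex.I * A (Pi.single j Complex.I)) = 0 := by
      rw [h3, mul_zero]
    rw [mul_add, ← mul_assoc, Complex.I_mul_I] at h4
    linear_combination -h4
  have hAv : ∀ v : Fin n → ℂ, A v = ∑ j, v j * A (Pi.single j 1) := by
    intro v
    conv_lhs => rw [wirt_pi_decomp v]
    rw [map_sum]
    refine Finset.sum_congr rfl fun j _ => ?_
    rw [map_add, map_smul, map_smul, h1 j, Complex.real_smul, Complex.real_smul]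
    conv_rhs => rw [← Complex.re_add_im (v j)]
    ring
  have hlin : ∀ (c : ℂ) (v : Fin n → ℂ), A (c • v) = c • A v := by
    intro c v
    rw [hAv, hAv v, smul_eq_mul, Finset.mul_sum]
    refine Finset.sum_congr rfl fun j _ => ?_
    rw [Pi.smul_apply, smul_eq_mul]
    ring
  let B : (Fin n → ℂ) →L[ℂ] ℂ :=
    { toFun := A
      map_add' := fun x y => map_add A x y
      map_smul' := fun c x => by simpa using hlin c x
      cont := A.continuous }
  have hB : HasFDerivAt f B z := by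
    have h5 := hd.hasFDerivAt
    rw [hasFDerivAt_iff_tendsto] at h5 ⊢
    exact h5
  exact hB.differentiableAt.differentiableWithinAt

theorem wirt_contDiffOn_fderiv_apply {W : Set (Fin n → ℂ)} (hW : IsOpen W) {m : ℕ}
    (hf : ContDiffOn ℝ (m + 1 : ℕ) f W) (v : Fin n → ℂ) :
    ContDiffOn ℝ m (fun z => fderiv ℝ f z v) W := by
  have h : ContDiffOn ℝ m (fderiv ℝ f) W :=
    hf.fderiv_of_isOpen hW (by push_cast; exact le_rfl)
  exact h.clm_apply contDiffOn_const

theorem contDiffOn_dz {W : Set (Fin n → ℂ)} (hW : IsOpen W) {m : ℕ}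
    (hf : ContDiffOn ℝ (m + 1 : ℕ) f W) : ContDiffOn ℝ m (dz j f) W := by
  have h1 := wirt_contDiffOn_fderiv_apply hW hf (Pi.single j 1)
  have h2 := wirt_contDiffOn_fderiv_apply hW hf (Pi.single j Complex.I)
  exact (h1.sub (contDiffOn_const.mul h2)).div_const 2

theorem contDiffOn_dzb {W : Set (Fin n → ℂ)} (hW : IsOpen W) {m : ℕ}
    (hf : ContDiffOn ℝ (m + 1 : ℕ) f W) : ContDiffOn ℝ m (dzb j f) W := by
  have h1 := wirt_contDiffOn_fderiv_apply hW hf (Pi.single j 1)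
  have h2 := wirt_contDiffOn_fderiv_apply hW hf (Pi.single j Complex.I)
  exact (h1.add (contDiffOn_const.mul h2)).div_const 2

theorem differentiableOn_dz_holo {W : Set (Fin n → ℂ)} (hW : IsOpen W)
    (hf : DifferentiableOn ℂ f W) : DifferentiableOn ℂ (dz j f) W := by
  refine (Vale.Agent.P268.differentiableOn_fderiv_apply hW hf (Pi.single j 1)).congr fun z hz => ?_
  exact dz_holo ((hf z hz).differentiableAt (hW.mem_nhds hz))

theorem wirt_fderiv_fderiv_apply {W : Set (Fin n → ℂ)} (hW : IsOpen W) (hf : ContDiffOn ℝ 2 f W)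
    (hz : z ∈ W) (a b : Fin n → ℂ) :
    DifferentiableAt ℝ (fun w => fderiv ℝ f w a) z ∧
    fderiv ℝ (fun w => fderiv ℝ f w a) z b = fderiv ℝ (fderiv ℝ f) z b a := by
  have h1 : ContDiffOn ℝ 1 (fderiv ℝ f) W := hf.fderiv_of_isOpen hW (by norm_num)
  have h2 : DifferentiableAt ℝ (fderiv ℝ f) z :=
    ((h1 z hz).contDiffAt (hW.mem_nhds hz)).differentiableAt one_ne_zero
  have h3 : HasFDerivAt (fun w => fderiv ℝ f w a)
      ((ContinuousLinearMap.apply ℝ ℂ a).comp (fderiv ℝ (fderiv ℝ f) z)) z :=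
    (ContinuousLinearMap.apply ℝ ℂ a).hasFDerivAt.comp z h2.hasFDerivAt
  exact ⟨h3.differentiableAt, by rw [h3.fderiv]; rfl⟩

theorem wirt_second_symm {W : Set (Fin n → ℂ)} (hW : IsOpen W) (hf : ContDiffOn ℝ 2 f W)
    (hz : z ∈ W) (a b : Fin n → ℂ) :
    fderiv ℝ (fderiv ℝ f) z b a = fderiv ℝ (fderiv ℝ f) z a b := by
  have h : ContDiffAt ℝ 2 f z := (hf z hz).contDiffAt (hW.mem_nhds hz)
  exact (h.isSymmSndFDerivAt (by simp)) b a

theorem wirt_fderiv_dzb {W : Set (Fin n → ℂ)} (hW : IsOpen W) (hf : ContDiffOn ℝ 2 f W)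
    (hz : z ∈ W) (k : Fin n) (v : Fin n → ℂ) :
    fderiv ℝ (dzb k f) z v = (fderiv ℝ (fderiv ℝ f) z v (Pi.single k 1) +
      Complex.I * fderiv ℝ (fderiv ℝ f) z v (Pi.single k Complex.I)) / 2 := by
  obtain ⟨h1, h1'⟩ := wirt_fderiv_fderiv_apply hW hf hz (Pi.single k 1) v
  obtain ⟨h2, h2'⟩ := wirt_fderiv_fderiv_apply hW hf hz (Pi.single k Complex.I) v
  have h3 := ((h1.hasFDerivAt.add (h2.hasFDerivAt.const_mul Complex.I)).mul_const (2 : ℂ)⁻¹)
  have h4 : dzb k f = fun w => (fderiv ℝ f w (Pi.single k 1) +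
      Complex.I * fderiv ℝ f w (Pi.single k Complex.I)) * 2⁻¹ := by
    funext w; rw [dzb, div_eq_mul_inv]
  rw [h4]
  erw [h3.fderiv]
  simp only [smul_apply, add_apply, smul_eq_mul, h1', h2']
  ring

theorem wirt_fderiv_dz {W : Set (Fin n → ℂ)} (hW : IsOpen W) (hf : ContDiffOn ℝ 2 f W)
    (hz : z ∈ W) (k : Fin n) (v : Fin n → ℂ) :
    fderiv ℝ (dz k f) z v = (fderiv ℝ (fderiv ℝ f) z v (Pi.single k 1) -
      Complex.I * fderiv ℝ (fderiv ℝ f) z v (Pi.single k Complex.I)) / 2 := by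
  obtain ⟨h1, h1'⟩ := wirt_fderiv_fderiv_apply hW hf hz (Pi.single k 1) v
  obtain ⟨h2, h2'⟩ := wirt_fderiv_fderiv_apply hW hf hz (Pi.single k Complex.I) v
  have h3 := ((h1.hasFDerivAt.sub (h2.hasFDerivAt.const_mul Complex.I)).mul_const (2 : ℂ)⁻¹)
  have h4 : dz k f = fun w => (fderiv ℝ f w (Pi.single k 1) -
      Complex.I * fderiv ℝ f w (Pi.single k Complex.I)) * 2⁻¹ := by
    funext w; rw [dz, div_eq_mul_inv]
  rw [h4]
  erw [h3.fderiv]
  simp only [smul_apply, sub_apply, smul_eq_mul, h1', h2']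
  ring

theorem dz_dzb_comm {W : Set (Fin n → ℂ)} (hW : IsOpen W) (hf : ContDiffOn ℝ 2 f W) (hz : z ∈ W) :
    dz j (dzb k f) z = dzb k (dz j f) z := by
  rw [dz, dzb]
  simp only [wirt_fderiv_dz hW hf hz, wirt_fderiv_dzb hW hf hz]
  rw [wirt_second_symm hW hf hz (Pi.single k 1) (Pi.single j 1),
    wirt_second_symm hW hf hz (Pi.single k Complex.I) (Pi.single j 1),
    wirt_second_symm hW hf hz (Pi.single k 1) (Pi.single j Complex.I),
    wirt_second_symm hW hf hz (Pi.single k Complex.I) (Pi.single j Complex.I)]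
  ring

theorem dzb_dzb_comm {W : Set (Fin n → ℂ)} (hW : IsOpen W) (hf : ContDiffOn ℝ 2 f W) (hz : z ∈ W) :
    dzb j (dzb k f) z = dzb k (dzb j f) z := by
  rw [dzb, dzb]
  simp only [wirt_fderiv_dzb hW hf hz]
  rw [wirt_second_symm hW hf hz (Pi.single k 1) (Pi.single j 1),
    wirt_second_symm hW hf hz (Pi.single k Complex.I) (Pi.single j 1),
    wirt_second_symm hW hf hz (Pi.single k 1) (Pi.single j Complex.I),
    wirt_second_symm hW hf hz (Pi.single k Complex.I) (Pi.single j Complex.I)]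
  ring

theorem dz_dz_comm {W : Set (Fin n → ℂ)} (hW : IsOpen W) (hf : ContDiffOn ℝ 2 f W) (hz : z ∈ W) :
    dz j (dz k f) z = dz k (dz j f) z := by
  rw [dz, dz]
  simp only [wirt_fderiv_dz hW hf hz]
  rw [wirt_second_symm hW hf hz (Pi.single k 1) (Pi.single j 1),
    wirt_second_symm hW hf hz (Pi.single k Complex.I) (Pi.single j 1),
    wirt_second_symm hW hf hz (Pi.single k 1) (Pi.single j Complex.I),
    wirt_second_symm hW hf hz (Pi.single k Complex.I) (Pi.single j Complex.I)]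
  ring

theorem wirt_integrable_fderiv_apply (hf : ContDiff ℝ 1 f) (hs : HasCompactSupport f)
    (v : Fin n → ℂ) : Integrable (fun z => fderiv ℝ f z v) := by
  have hc : Continuous (fun z => fderiv ℝ f z v) :=
    (hf.continuous_fderiv one_ne_zero).clm_apply continuous_const
  refine hc.integrable_of_hasCompactSupport ?_
  exact hs.fderiv_apply ℝ v

theorem wirt_integral_fderiv_apply (hf : ContDiff ℝ 1 f) (hs : HasCompactSupport f)
    (v : Fin n → ℂ) : ∫ z, fderiv ℝ f z v = 0 := by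
  have h := integral_mul_fderiv_eq_neg_fderiv_mul_of_integrable (𝕜 := ℂ)
    (μ := (volume : Measure (Fin n → ℂ))) (f := fun _ => (1 : ℂ)) (g := f) (v := v)
    (by simp) (by simpa using wirt_integrable_fderiv_apply hf hs v)
    (by simpa using hf.continuous.integrable_of_hasCompactSupport hs)
    (fun x _ => differentiableAt_const _)
    (fun x _ => (hf.differentiable one_ne_zero) x)
  simpa using h

theorem integral_dz (hf : ContDiff ℝ 1 f) (hs : HasCompactSupport f) :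
    ∫ z, dz j f z = 0 := by
  have h1 := wirt_integrable_fderiv_apply hf hs (Pi.single j 1)
  have h2 := (wirt_integrable_fderiv_apply hf hs (Pi.single j Complex.I)).const_mul Complex.I
  simp only [dz]
  rw [integral_div, integral_sub h1 h2, integral_const_mul, wirt_integral_fderiv_apply hf hs,
    wirt_integral_fderiv_apply hf hs]
  simp

theorem integral_dzb (hf : ContDiff ℝ 1 f) (hs : HasCompactSupport f) :
    ∫ z, dzb j f z = 0 := by
  have h1 := wirt_integrable_fderiv_apply hf hs (Pi.single j 1)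
  have h2 := (wirt_integrable_fderiv_apply hf hs (Pi.single j Complex.I)).const_mul Complex.I
  simp only [dzb]
  rw [integral_div, integral_add h1 h2, integral_const_mul, wirt_integral_fderiv_apply hf hs,
    wirt_integral_fderiv_apply hf hs]
  simp

end Vale.Agent.P300.H14L2
end

section

open MeasureTheory Filter Topology
open scoped ENNReal NNReal ComplexConjugate Classical

namespace Vale.Agent.P300.H14L2

namespace Sheets

variable {n N : ℕ} {L : Type} [TopologicalSpace L] [T2Space L] {S : Sheets n N L} {X Y : (Fin n → ℂ) × L → ℂ} {q : (Fin n → ℂ) × L}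
  {j k : Fin n} {m : ℕ} {W W' : Set (Fin n → ℂ)} {s s' : (Fin n → ℂ) → L}

theorem exists_section (hq : q ∈ S.M) : ∃ s W, S.IsSection W s ∧ q.1 ∈ W ∧ s q.1 = q.2 := by
  obtain ⟨W, σ, hW, hqW, hWV, hσ, hfib⟩ := S.loc q.1 hq.1
  have h2 : q.2 ∈ Finset.univ.image (fun i => σ i q.1) := by
    rw [← (hfib q.1 hqW).2]
    exact hq.2
  obtain ⟨i, -, hi⟩ := Finset.mem_image.1 h2
  refine ⟨σ i, W, ⟨hW, hWV, hσ i, fun z hz => ?_⟩, hqW, hi⟩
  rw [(hfib z hz).2]
  exact Finset.mem_image_of_mem _ (Finset.mem_univ i)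

theorem germ_aux (h : S.IsSection W s) {z : Fin n → ℂ} (hz : z ∈ W)
    {W₀ : Set (Fin n → ℂ)} {σ : Fin N → (Fin n → ℂ) → L} (hW₀ : IsOpen W₀) (hz₀ : z ∈ W₀)
    (hσ : ∀ i, ContinuousOn (σ i) W₀)
    (hfib : ∀ z ∈ W₀, Function.Injective (fun i => σ i z) ∧
      S.fib z = Finset.univ.image (fun i => σ i z)) {i : Fin N} (hi : σ i z = s z) :
    s =ᶠ[𝓝 z] σ i := by
  have hc : ContinuousAt s z := h.cont.continuousAt (h.isOpen.mem_nhds hz)
  have hcσ : ∀ i, ContinuousAt (σ i) z := fun i =>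
    (hσ i).continuousAt (hW₀.mem_nhds hz₀)
  have hne : ∀ᶠ z' in 𝓝 z, ∀ l : Fin N, l ≠ i → s z' ≠ σ l z' := by
    rw [Filter.eventually_all]
    intro l
    by_cases hl : l = i
    · exact Filter.Eventually.of_forall fun z' h' => absurd hl h'
    · have h1 : s z ≠ σ l z := by
        rw [← hi]
        intro h2
        exact hl ((hfib z hz₀).1 h2.symm)
      filter_upwards [hc.ne_iff_eventually_ne (hcσ l) |>.1 h1] with z' h2 _ using h2
  filter_upwards [hne, h.isOpen.mem_nhds hz, hW₀.mem_nhds hz₀] with z' h1 h2 h3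
  have h4 := h.mem z' h2
  rw [(hfib z' h3).2] at h4
  obtain ⟨l, -, hl⟩ := Finset.mem_image.1 h4
  by_cases hli : l = i
  · rw [← hl, hli]
  · exact absurd hl.symm (h1 l hli)

/-- Sections through the same point agree near it. -/
theorem IsSection.germ (h : S.IsSection W s) (h' : S.IsSection W' s') {z : Fin n → ℂ}
    (hz : z ∈ W) (hz' : z ∈ W') (hs : s z = s' z) : s =ᶠ[𝓝 z] s' := by
  obtain ⟨W₀, σ, hW₀, hz₀, -, hσ, hfib⟩ := S.loc z (h.subset hz)
  have h2 := h.mem z hz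
  rw [(hfib z hz₀).2] at h2
  obtain ⟨i, -, hi⟩ := Finset.mem_image.1 h2
  exact (germ_aux h hz hW₀ hz₀ hσ hfib hi).trans
    (germ_aux h' hz' hW₀ hz₀ hσ hfib (hi.trans hs)).symm

theorem IsSection.mem_M (h : S.IsSection W s) {z : Fin n → ℂ} (hz : z ∈ W) : (z, s z) ∈ S.M :=
  ⟨h.subset hz, h.mem z hz⟩

theorem sec_spec (hq : q ∈ S.M) : ∃ W, S.IsSection W (S.sec q) ∧ q.1 ∈ W ∧ S.sec q q.1 = q.2 := by
  have h := exists_section hq
  unfold sec
  rw [dif_pos h]
  exact h.choose_spec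

theorem sec_germ (h : S.IsSection W s) {z : Fin n → ℂ} (hz : z ∈ W) :
    S.sec (z, s z) =ᶠ[𝓝 z] s := by
  obtain ⟨W', h', hz', hs⟩ := sec_spec (h.mem_M hz)
  exact h'.germ h hz' hz hs

theorem sec_comp_germ (h : S.IsSection W s) {z : Fin n → ℂ} (hz : z ∈ W) :
    (fun z' => X (z', S.sec (z, s z) z')) =ᶠ[𝓝 z] fun z' => X (z', s z') := by
  filter_upwards [sec_germ h hz] with z' h'
  rw [h']

theorem D_apply (h : S.IsSection W s) {z : Fin n → ℂ} (hz : z ∈ W) :
    S.D j X (z, s z) = dz j (fun z => X (z, s z)) z :=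
  dz_congr (sec_comp_germ h hz)

theorem Db_apply (h : S.IsSection W s) {z : Fin n → ℂ} (hz : z ∈ W) :
    S.Db j X (z, s z) = dzb j (fun z => X (z, s z)) z :=
  dzb_congr (sec_comp_germ h hz)

/-- Every point of the total space is on a section. -/
theorem exists_section' (hq : q ∈ S.M) : ∃ s W, S.IsSection W s ∧ ∃ z ∈ W, q = (z, s z) := by
  obtain ⟨s, W, h, hz, hs⟩ := exists_section hq
  exact ⟨s, W, h, q.1, hz, by rw [hs]⟩

theorem CD.mono {m' : ℕ} (hX : S.CD m X) (h : m' ≤ m) : S.CD m' X :=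
  fun W s hs => (hX W s hs).of_le (by exact_mod_cast h)

theorem CD.D (hX : S.CD (m + 1) X) : S.CD m (S.D j X) := fun W s hs =>
  (contDiffOn_dz hs.isOpen (hX W s hs)).congr fun _ hz => D_apply hs hz

theorem CD.Db (hX : S.CD (m + 1) X) : S.CD m (S.Db j X) := fun W s hs =>
  (contDiffOn_dzb hs.isOpen (hX W s hs)).congr fun _ hz => Db_apply hs hz

theorem CD.add (hX : S.CD m X) (hY : S.CD m Y) : S.CD m (fun q => X q + Y q) :=
  fun W s hs => (hX W s hs).add (hY W s hs)

theorem CD.mul (hX : S.CD m X) (hY : S.CD m Y) : S.CD m (fun q => X q * Y q) :=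
  fun W s hs => (hX W s hs).mul (hY W s hs)

theorem CD.conj (hX : S.CD m X) : S.CD m (fun q => conj (X q)) := fun W s hs =>
  (Complex.conjCLE.contDiff.of_le le_top).comp_contDiffOn (hX W s hs)

theorem CD.sum {ι : Type*} (t : Finset ι) {X : ι → (Fin n → ℂ) × L → ℂ}
    (hX : ∀ i ∈ t, S.CD m (X i)) : S.CD m (fun q => ∑ i ∈ t, X i q) := fun W s hs =>
  ContDiffOn.sum fun i hi => hX i hi W s hs

theorem CD.const (c : ℂ) : S.CD m (fun _ => c) := fun _ _ _ => contDiffOn_const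

/-- Functions of `z` only. -/
theorem CD.fst {f : (Fin n → ℂ) → ℂ} (hf : ContDiffOn ℝ m f S.V) : S.CD m (fun q => f q.1) :=
  fun _ _ hs => hf.mono hs.subset

theorem CD.re_section {u : (Fin n → ℂ) × L → ℝ} (hu : S.CD m (fun q => (u q : ℂ)))
    (hs : S.IsSection W s) : ContDiffOn ℝ m (fun z => u (z, s z)) W := by
  have h := (Complex.reCLM.contDiff (n := (m : WithTop ℕ∞))).comp_contDiffOn (hu W s hs)
  refine h.congr fun z _ => ?_
  simp

theorem CD.comp_real {φ : ℝ → ℝ} (hφ : ContDiff ℝ m φ) {u : (Fin n → ℂ) × L → ℝ}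
    (hu : S.CD m (fun q => (u q : ℂ))) : S.CD m (fun q => ((φ (u q) : ℝ) : ℂ)) := fun W s hs =>
  (Complex.ofRealCLM.contDiff (n := (m : WithTop ℕ∞))).comp_contDiffOn
    (hφ.comp_contDiffOn (CD.re_section hu hs))

theorem CD.log {u : (Fin n → ℂ) × L → ℝ} (hu : S.CD m (fun q => (u q : ℂ)))
    (hpos : ∀ q ∈ S.M, 0 < u q) : S.CD m (fun q => ((Real.log (u q) : ℝ) : ℂ)) := fun W s hs =>
  (Complex.ofRealCLM.contDiff (n := (m : WithTop ℕ∞))).comp_contDiffOn
    ((CD.re_section hu hs).log fun _ hz => (hpos _ (hs.mem_M hz)).ne')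

theorem CD.congr (hX : S.CD m X) (h : ∀ q ∈ S.M, Y q = X q) : S.CD m Y := fun W s hs =>
  (hX W s hs).congr fun _ hz => h _ (hs.mem_M hz)

theorem congr_section (h : ∀ q ∈ S.M, Y q = X q) (hs : S.IsSection W s) {z : Fin n → ℂ}
    (hz : z ∈ W) : (fun z => Y (z, s z)) =ᶠ[𝓝 z] fun z => X (z, s z) := by
  filter_upwards [hs.isOpen.mem_nhds hz] with z' hz' using h _ (hs.mem_M hz')

theorem D_congr (h : ∀ q ∈ S.M, Y q = X q) (hq : q ∈ S.M) : S.D j Y q = S.D j X q := by
  obtain ⟨s, W, hs, z, hz, rfl⟩ := exists_section' hq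
  rw [D_apply hs hz, D_apply hs hz, dz_congr (congr_section h hs hz)]

theorem Db_congr (h : ∀ q ∈ S.M, Y q = X q) (hq : q ∈ S.M) : S.Db j Y q = S.Db j X q := by
  obtain ⟨s, W, hs, z, hz, rfl⟩ := exists_section' hq
  rw [Db_apply hs hz, Db_apply hs hz, dzb_congr (congr_section h hs hz)]

theorem CD.diffAt (hX : S.CD 1 X) (hs : S.IsSection W s) {z : Fin n → ℂ} (hz : z ∈ W) :
    DifferentiableAt ℝ (fun z => X (z, s z)) z :=
  ((hX W s hs).contDiffAt (hs.isOpen.mem_nhds hz)).differentiableAt (by norm_num)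

theorem D_add (hX : S.CD 1 X) (hY : S.CD 1 Y) (hq : q ∈ S.M) :
    S.D j (fun q => X q + Y q) q = S.D j X q + S.D j Y q := by
  obtain ⟨s, W, hs, z, hz, rfl⟩ := exists_section' hq
  rw [D_apply hs hz, D_apply hs hz, D_apply hs hz]
  exact dz_add (hX.diffAt hs hz) (hY.diffAt hs hz)

theorem Db_add (hX : S.CD 1 X) (hY : S.CD 1 Y) (hq : q ∈ S.M) :
    S.Db j (fun q => X q + Y q) q = S.Db j X q + S.Db j Y q := by
  obtain ⟨s, W, hs, z, hz, rfl⟩ := exists_section' hq
  rw [Db_apply hs hz, Db_apply hs hz, Db_apply hs hz]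
  exact dzb_add (hX.diffAt hs hz) (hY.diffAt hs hz)

theorem D_sum {ι : Type*} (t : Finset ι) {X : ι → (Fin n → ℂ) × L → ℂ}
    (hX : ∀ i ∈ t, S.CD 1 (X i)) (hq : q ∈ S.M) :
    S.D j (fun q => ∑ i ∈ t, X i q) q = ∑ i ∈ t, S.D j (X i) q := by
  obtain ⟨s, W, hs, z, hz, rfl⟩ := exists_section' hq
  rw [D_apply hs hz, Finset.sum_congr rfl fun i _ => D_apply (j := j) (X := X i) hs hz]
  exact dz_sum t fun i hi => (hX i hi).diffAt hs hz

theorem Db_sum {ι : Type*} (t : Finset ι) {X : ι → (Fin n → ℂ) × L → ℂ}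
    (hX : ∀ i ∈ t, S.CD 1 (X i)) (hq : q ∈ S.M) :
    S.Db j (fun q => ∑ i ∈ t, X i q) q = ∑ i ∈ t, S.Db j (X i) q := by
  obtain ⟨s, W, hs, z, hz, rfl⟩ := exists_section' hq
  rw [Db_apply hs hz, Finset.sum_congr rfl fun i _ => Db_apply (j := j) (X := X i) hs hz]
  exact dzb_sum t fun i hi => (hX i hi).diffAt hs hz

theorem D_mul (hX : S.CD 1 X) (hY : S.CD 1 Y) (hq : q ∈ S.M) :
    S.D j (fun q => X q * Y q) q = S.D j X q * Y q + X q * S.D j Y q := by
  obtain ⟨s, W, hs, z, hz, rfl⟩ := exists_section' hq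
  rw [D_apply hs hz, D_apply hs hz, D_apply hs hz]
  exact dz_mul (hX.diffAt hs hz) (hY.diffAt hs hz)

theorem Db_mul (hX : S.CD 1 X) (hY : S.CD 1 Y) (hq : q ∈ S.M) :
    S.Db j (fun q => X q * Y q) q = S.Db j X q * Y q + X q * S.Db j Y q := by
  obtain ⟨s, W, hs, z, hz, rfl⟩ := exists_section' hq
  rw [Db_apply hs hz, Db_apply hs hz, Db_apply hs hz]
  exact dzb_mul (hX.diffAt hs hz) (hY.diffAt hs hz)

theorem D_conj : S.D j (fun q => conj (X q)) q = conj (S.Db j X q) := dz_conj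

theorem Db_conj : S.Db j (fun q => conj (X q)) q = conj (S.D j X q) := dzb_conj

theorem D_fst {f : (Fin n → ℂ) → ℂ} : S.D j (fun q => f q.1) q = dz j f q.1 := rfl

theorem Db_fst {f : (Fin n → ℂ) → ℂ} : S.Db j (fun q => f q.1) q = dzb j f q.1 := rfl

theorem re_diffAt {u : (Fin n → ℂ) × L → ℝ} (hu : S.CD 1 (fun q => (u q : ℂ)))
    (hs : S.IsSection W s) {z : Fin n → ℂ} (hz : z ∈ W) :
    DifferentiableAt ℝ (fun z => u (z, s z)) z :=
  ((CD.re_section hu hs).contDiffAt (hs.isOpen.mem_nhds hz)).differentiableAt (by norm_num)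

theorem D_comp_real {φ : ℝ → ℝ} {u : (Fin n → ℂ) × L → ℝ}
    (hu : S.CD 1 (fun q => (u q : ℂ))) (hq : q ∈ S.M) (hφ : DifferentiableAt ℝ φ (u q)) :
    S.D j (fun q => ((φ (u q) : ℝ) : ℂ)) q = ((deriv φ (u q) : ℝ) : ℂ) * S.D j (fun q => (u q : ℂ)) q := by
  obtain ⟨s, W, hs, z, hz, rfl⟩ := exists_section' hq
  rw [D_apply hs hz, D_apply hs hz]
  exact dz_comp_real (re_diffAt hu hs hz) hφ

theorem Db_comp_real {φ : ℝ → ℝ} {u : (Fin n → ℂ) × L → ℝ}
    (hu : S.CD 1 (fun q => (u q : ℂ))) (hq : q ∈ S.M) (hφ : DifferentiableAt ℝ φ (u q)) :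
    S.Db j (fun q => ((φ (u q) : ℝ) : ℂ)) q =
      ((deriv φ (u q) : ℝ) : ℂ) * S.Db j (fun q => (u q : ℂ)) q := by
  obtain ⟨s, W, hs, z, hz, rfl⟩ := exists_section' hq
  rw [Db_apply hs hz, Db_apply hs hz]
  exact dzb_comp_real (re_diffAt hu hs hz) hφ

theorem D_Db_comm (hX : S.CD 2 X) (hq : q ∈ S.M) : S.D j (S.Db k X) q = S.Db k (S.D j X) q := by
  obtain ⟨s, W, hs, z, hz, rfl⟩ := exists_section' hq
  have h1 : (fun z => S.Db k X (z, s z)) =ᶠ[𝓝 z] dzb k (fun z => X (z, s z)) := by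
    filter_upwards [hs.isOpen.mem_nhds hz] with z' hz' using Db_apply hs hz'
  have h2 : (fun z => S.D j X (z, s z)) =ᶠ[𝓝 z] dz j (fun z => X (z, s z)) := by
    filter_upwards [hs.isOpen.mem_nhds hz] with z' hz' using D_apply hs hz'
  rw [D_apply hs hz, Db_apply hs hz, dz_congr h1, dzb_congr h2]
  exact dz_dzb_comm hs.isOpen (hX W s hs) hz

theorem Db_Db_comm (hX : S.CD 2 X) (hq : q ∈ S.M) : S.Db j (S.Db k X) q = S.Db k (S.Db j X) q := by
  obtain ⟨s, W, hs, z, hz, rfl⟩ := exists_section' hq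
  have h1 : (fun z => S.Db k X (z, s z)) =ᶠ[𝓝 z] dzb k (fun z => X (z, s z)) := by
    filter_upwards [hs.isOpen.mem_nhds hz] with z' hz' using Db_apply hs hz'
  have h2 : (fun z => S.Db j X (z, s z)) =ᶠ[𝓝 z] dzb j (fun z => X (z, s z)) := by
    filter_upwards [hs.isOpen.mem_nhds hz] with z' hz' using Db_apply hs hz'
  rw [Db_apply hs hz, Db_apply hs hz, dzb_congr h1, dzb_congr h2]
  exact dzb_dzb_comm hs.isOpen (hX W s hs) hz

theorem Holo.Db (hX : S.Holo X) (hq : q ∈ S.M) : S.Db j X q = 0 := by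
  obtain ⟨s, W, hs, z, hz, rfl⟩ := exists_section' hq
  rw [Db_apply hs hz]
  exact dzb_holo ((hX W s hs).differentiableAt (hs.isOpen.mem_nhds hz))

theorem contDiffOn_real_of_holo {f : (Fin n → ℂ) → ℂ} (hW : IsOpen W)
    (hf : DifferentiableOn ℂ f W) (m : ℕ) : ContDiffOn ℝ m f W := by
  induction m generalizing f with
  | zero => exact_mod_cast contDiffOn_zero.2 hf.continuousOn
  | succ m ih =>
    rw [Nat.cast_add, Nat.cast_one, contDiffOn_succ_iff_fderiv_of_isOpen hW]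
    refine ⟨hf.restrictScalars ℝ, by simp, ?_⟩
    rw [contDiffOn_clm_apply]
    intro v
    have h1 : ContDiffOn ℝ m (fun z => ∑ j, v j * dz j f z) W :=
      ContDiffOn.sum fun j _ => contDiffOn_const.mul (ih (differentiableOn_dz_holo hW hf))
    refine h1.congr fun z hz => ?_
    have h2 : DifferentiableAt ℂ f z := hf.differentiableAt (hW.mem_nhds hz)
    have h3 : fderiv ℝ f z v = fderiv ℂ f z v := by
      rw [h2.fderiv_restrictScalars ℝ]
      rfl
    rw [h3]
    have h4 : v = ∑ j, v j • (Pi.single j (1 : ℂ) : Fin n → ℂ) := by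
      ext l
      simp [Finset.sum_apply, Pi.single_apply]
    conv_lhs => rw [h4]
    rw [map_sum]
    refine Finset.sum_congr rfl fun j _ => ?_
    rw [map_smul, dz_holo h2, smul_eq_mul]

theorem Holo.CD (hX : S.Holo X) (m : ℕ) : S.CD m X := fun W s hs =>
  contDiffOn_real_of_holo hs.isOpen (hX W s hs) m

theorem Holo.D (hX : S.Holo X) : S.Holo (S.D j X) := fun W s hs =>
  (differentiableOn_dz_holo hs.isOpen (hX W s hs)).congr fun _ hz => D_apply hs hz

theorem Holo.mul (hX : S.Holo X) (hY : S.Holo Y) : S.Holo (fun q => X q * Y q) :=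
  fun W s hs => (hX W s hs).mul (hY W s hs)

theorem Holo.add (hX : S.Holo X) (hY : S.Holo Y) : S.Holo (fun q => X q + Y q) :=
  fun W s hs => (hX W s hs).add (hY W s hs)

theorem Holo.const (c : ℂ) : S.Holo (fun _ => c) := fun _ _ _ => differentiableOn_const _

theorem Holo.fst {f : (Fin n → ℂ) → ℂ} (hf : DifferentiableOn ℂ f S.V) :
    S.Holo (fun q => f q.1) := fun _ _ hs => hf.mono hs.subset

theorem Holo.inv (hX : S.Holo X) (h : ∀ q ∈ S.M, X q ≠ 0) : S.Holo (fun q => (X q)⁻¹) :=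
  fun W s hs => (hX W s hs).inv fun _ hz => h _ (hs.mem_M hz)

theorem card_fib {z : Fin n → ℂ} (hz : z ∈ S.V) : (S.fib z).card = N := by
  obtain ⟨W, σ, -, hzW, -, -, hfib⟩ := S.loc z hz
  rw [(hfib z hzW).2, Finset.card_image_of_injective _ (hfib z hzW).1, Finset.card_univ,
    Fintype.card_fin]

end Sheets

end Vale.Agent.P300.H14L2
end

section

open MeasureTheory Filter Topology
open scoped ENNReal NNReal ComplexConjugate Classical

namespace Vale.Agent.P300.H14L2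

namespace Sheets

variable {n N : ℕ} {L : Type} [TopologicalSpace L] [T2Space L] {S : Sheets n N L} {X Y : (Fin n → ℂ) × L → ℂ} {q : (Fin n → ℂ) × L}
  {j k : Fin n} {m : ℕ} {W W' : Set (Fin n → ℂ)} {s s' : (Fin n → ℂ) → L}

/-- All the sections near a point. -/
theorem exists_sections {z₀ : Fin n → ℂ} (hz : z₀ ∈ S.V) :
    ∃ (W : Set (Fin n → ℂ)) (s : Fin N → (Fin n → ℂ) → L), IsOpen W ∧ z₀ ∈ W ∧
      (∀ i, S.IsSection W (s i)) ∧ (∀ z ∈ W, Function.Injective fun i => s i z) ∧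
      (∀ z ∈ W, S.fib z = Finset.univ.image fun i => s i z) ∧
      ∀ (X : (Fin n → ℂ) × L → ℂ), ∀ z ∈ W, S.fsum X z = ∑ i, X (z, s i z) := by
  obtain ⟨W, s, hW, hzW, hWV, hs, h⟩ := S.loc z₀ hz
  refine ⟨W, s, hW, hzW, fun i => ⟨hW, hWV, hs i, fun z hz => ?_⟩, fun z hz => (h z hz).1,
    fun z hz => (h z hz).2, fun X z hz => ?_⟩
  · rw [(h z hz).2]
    exact Finset.mem_image_of_mem _ (Finset.mem_univ i)
  · rw [fsum, (h z hz).2, Finset.sum_image fun i _ j _ hij => (h z hz).1 hij]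

/-- Fiber sums. -/
theorem contDiffOn_fsum (hX : S.CD m X) : ContDiffOn ℝ m (S.fsum X) S.V := by
  intro z hz
  obtain ⟨W, s, hW, hzW, hs, -, -, hsum⟩ := exists_sections hz
  have h1 : ContDiffOn ℝ m (fun z => ∑ i, X (z, s i z)) W :=
    ContDiffOn.sum fun i _ => hX W (s i) (hs i)
  have h2 : ContDiffAt ℝ m (fun z => ∑ i, X (z, s i z)) z := h1.contDiffAt (hW.mem_nhds hzW)
  refine (h2.congr_of_eventuallyEq ?_).contDiffWithinAt
  filter_upwards [hW.mem_nhds hzW] with y hy using hsum X y hy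

theorem dz_fsum (hX : S.CD 1 X) {z : Fin n → ℂ} (hz : z ∈ S.V) :
    dz j (S.fsum X) z = S.fsum (S.D j X) z := by
  obtain ⟨W, s, hW, hzW, hs, -, -, hsum⟩ := exists_sections hz
  have h1 : S.fsum X =ᶠ[𝓝 z] fun z => ∑ i, X (z, s i z) := by
    filter_upwards [hW.mem_nhds hzW] with y hy using hsum X y hy
  rw [dz_congr h1, dz_sum Finset.univ, hsum _ z hzW]
  · exact Finset.sum_congr rfl fun i _ => (D_apply (hs i) hzW).symm
  · intro i _
    exact ((hX W (s i) (hs i)).differentiableOn (by norm_num)).differentiableAt (hW.mem_nhds hzW)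

theorem dzb_fsum (hX : S.CD 1 X) {z : Fin n → ℂ} (hz : z ∈ S.V) :
    dzb j (S.fsum X) z = S.fsum (S.Db j X) z := by
  obtain ⟨W, s, hW, hzW, hs, -, -, hsum⟩ := exists_sections hz
  have h1 : S.fsum X =ᶠ[𝓝 z] fun z => ∑ i, X (z, s i z) := by
    filter_upwards [hW.mem_nhds hzW] with y hy using hsum X y hy
  rw [dzb_congr h1, dzb_sum Finset.univ, hsum _ z hzW]
  · exact Finset.sum_congr rfl fun i _ => (Db_apply (hs i) hzW).symm
  · intro i _
    exact ((hX W (s i) (hs i)).differentiableOn (by norm_num)).differentiableAt (hW.mem_nhds hzW)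

theorem differentiableOn_fsum (hX : S.Holo X) : DifferentiableOn ℂ (S.fsum X) S.V := by
  intro z hz
  obtain ⟨W, s, hW, hzW, hs, -, -, hsum⟩ := exists_sections hz
  have h2 : DifferentiableAt ℂ (fun z => ∑ i, X (z, s i z)) z :=
    DifferentiableAt.fun_sum fun i _ => (hX W (s i) (hs i)).differentiableAt (hW.mem_nhds hzW)
  refine (h2.congr_of_eventuallyEq ?_).differentiableWithinAt
  filter_upwards [hW.mem_nhds hzW] with y hy using hsum X y hy

theorem contDiff_fsum (hX : S.CD m X) (hs : S.Supp X) : ContDiff ℝ m (S.fsum X) := by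
  obtain ⟨C, hC, hCV, h0⟩ := hs
  rw [contDiff_iff_contDiffAt]
  intro z
  by_cases hz : z ∈ S.V
  · exact (contDiffOn_fsum hX).contDiffAt (S.isOpen.mem_nhds hz)
  · have hzC : z ∈ Cᶜ := fun h => hz (hCV h)
    have h1 : S.fsum X =ᶠ[𝓝 z] fun _ => 0 := by
      filter_upwards [hC.isClosed.isOpen_compl.mem_nhds hzC] with y hy
      exact Finset.sum_eq_zero fun w _ => h0 (y, w) hy
    exact contDiffAt_const.congr_of_eventuallyEq h1

theorem hasCompactSupport_fsum (hs : S.Supp X) : HasCompactSupport (S.fsum X) := by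
  obtain ⟨C, hC, -, h0⟩ := hs
  exact HasCompactSupport.intro hC fun z hz => Finset.sum_eq_zero fun w _ => h0 (z, w) hz
end Sheets

end Vale.Agent.P300.H14L2
end
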