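import Mathlib

/-!
# P300 / PROJ : Hörmander's theorem on finite covers, definitions (helper14)

Port of `P282/Bd3/B1` (definitions `Sheets`, `Exh`) from holomorphic labels in `ℂ` to continuous
labels in an arbitrary space `L`: `M = {(z, w) : z ∈ V, w ∈ fib z} ⊆ ℂⁿ × L` is an `N`-sheeted
covering of the open set `V ⊆ ℂⁿ`. For a finite covering `pr : L → V` take
`fib z = pr⁻¹ z`, so `M = {(pr x, x)}`.
-/

set_option autoImplicit false

open MeasureTheory Filter Topology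
open scoped ENNReal NNReal ComplexConjugate

namespace Vale.Agent.P300.H14L2

/-! ### Wirtinger derivatives on `ℂⁿ` -/

/-- `∂f/∂z_j`. -/
noncomputable def dz {n : ℕ} (j : Fin n) (f : (Fin n → ℂ) → ℂ) (z : Fin n → ℂ) : ℂ :=
  (fderiv ℝ f z (Pi.single j 1) - Complex.I * fderiv ℝ f z (Pi.single j Complex.I)) / 2

/-- `∂f/∂z̄_j`. -/
noncomputable def dzb {n : ℕ} (j : Fin n) (f : (Fin n → ℂ) → ℂ) (z : Fin n → ℂ) : ℂ :=
  (fderiv ℝ f z (Pi.single j 1) + Complex.I * fderiv ℝ f z (Pi.single j Complex.I)) / 2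

/-! ### Finite étale covers of open subsets of `ℂⁿ`, as subsets of `ℂⁿ × L` -/

open Classical in
/-- An `N`-sheeted étale cover `M = {(z, w) : z ∈ V, w ∈ fib z}` of an open set `V ⊆ ℂⁿ`. -/
structure Sheets (n N : ℕ) (L : Type) [TopologicalSpace L] where
  V : Set (Fin n → ℂ)
  fib : (Fin n → ℂ) → Finset L
  isOpen : IsOpen V
  loc : ∀ z₀ ∈ V, ∃ (W : Set (Fin n → ℂ)) (s : Fin N → (Fin n → ℂ) → L),
    IsOpen W ∧ z₀ ∈ W ∧ W ⊆ V ∧ (∀ i, ContinuousOn (s i) W) ∧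
    ∀ z ∈ W, Function.Injective (fun i => s i z) ∧ fib z = Finset.univ.image (fun i => s i z)

namespace Sheets

variable {n N : ℕ} {L : Type} [TopologicalSpace L] (S : Sheets n N L)

/-- The total space. -/
def M : Set ((Fin n → ℂ) × L) := {q | q.1 ∈ S.V ∧ q.2 ∈ S.fib q.1}

/-- `s` is a continuous section of `M → V` over the open set `W`. -/
structure IsSection (W : Set (Fin n → ℂ)) (s : (Fin n → ℂ) → L) : Prop where
  isOpen : IsOpen W
  subset : W ⊆ S.V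
  cont : ContinuousOn s W
  mem : ∀ z ∈ W, s z ∈ S.fib z

/-- `X` is of class `C^k` along the sheets. -/
def CD (k : ℕ) (X : (Fin n → ℂ) × L → ℂ) : Prop :=
  ∀ W s, S.IsSection W s → ContDiffOn ℝ k (fun z => X (z, s z)) W

/-- `X` is holomorphic along the sheets. -/
def Holo (X : (Fin n → ℂ) × L → ℂ) : Prop :=
  ∀ W s, S.IsSection W s → DifferentiableOn ℂ (fun z => X (z, s z)) W

open Classical in
/-- A local section through `q`. -/
noncomputable def sec (q : (Fin n → ℂ) × L) : (Fin n → ℂ) → L :=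
  if h : ∃ s : (Fin n → ℂ) → L, ∃ W, S.IsSection W s ∧ q.1 ∈ W ∧ s q.1 = q.2 then h.choose
  else fun _ => q.2

/-- `∂/∂z_j` along the sheets. -/
noncomputable def D (j : Fin n) (X : (Fin n → ℂ) × L → ℂ) (q : (Fin n → ℂ) × L) : ℂ :=
  dz j (fun z => X (z, S.sec q z)) q.1

/-- `∂/∂z̄_j` along the sheets. -/
noncomputable def Db (j : Fin n) (X : (Fin n → ℂ) × L → ℂ) (q : (Fin n → ℂ) × L) : ℂ :=
  dzb j (fun z => X (z, S.sec q z)) q.1

/-- `X` vanishes outside of a compact subset of `V`. -/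
def Supp (X : (Fin n → ℂ) × L → ℂ) : Prop :=
  ∃ C : Set (Fin n → ℂ), IsCompact C ∧ C ⊆ S.V ∧ ∀ q : (Fin n → ℂ) × L, q.1 ∉ C → X q = 0

/-- Test functions. -/
def IsTest (X : (Fin n → ℂ) × L → ℂ) : Prop := S.CD 2 X ∧ S.Supp X

/-- Sum over the fibers. -/
noncomputable def fsum (X : (Fin n → ℂ) × L → ℂ) (z : Fin n → ℂ) : ℂ := ∑ w ∈ S.fib z, X (z, w)

/-- The pull back of Lebesgue measure to `M`. -/
noncomputable def μ [MeasurableSpace L] : Measure ((Fin n → ℂ) × L) :=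
  (volume.restrict S.V).bind fun z => ∑ w ∈ S.fib z, Measure.dirac (z, w)

/-- Levi form of a real function along the sheets. -/
noncomputable def levi (Φ : (Fin n → ℂ) × L → ℝ) (β : Fin n → ℂ) (q : (Fin n → ℂ) × L) : ℝ :=
  (∑ j, ∑ k, S.D j (S.Db k (fun q => (Φ q : ℂ))) q * β j * conj (β k)).re

end Sheets

/-- A plurisubharmonic exhaustion function of `V` with polynomially bounded gradient. -/
structure Exh {n : ℕ} (V : Set (Fin n → ℂ)) (p : (Fin n → ℂ) → ℝ) (C : ℝ) (k0 : ℕ) : Prop where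
  smooth : ContDiffOn ℝ 4 p V
  norm_sq_le : ∀ z ∈ V, ‖z‖ ^ 2 ≤ p z
  compact : ∀ c : ℝ, IsCompact {z | z ∈ V ∧ p z ≤ c}
  levi : ∀ z ∈ V, ∀ β : Fin n → ℂ, ∑ j, ‖β j‖ ^ 2 ≤
    (∑ j, ∑ k, dz j (dzb k (fun z => (p z : ℂ))) z * β j * conj (β k)).re
  grad : ∀ z ∈ V, ∑ j, ‖dz j (fun z => (p z : ℂ)) z‖ ^ 2 ≤ C * (1 + p z) ^ k0

end Vale.Agent.P300.H14L2
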