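import Vale.Agent.P300.H14.L2.Calc

/-!
# P300 / PROJ : the measure on the sheets (port of `P282/Bd3/B1`)
-/

set_option autoImplicit false

section

open MeasureTheory Filter Topology
open scoped ENNReal NNReal ComplexConjugate Classical

namespace Vale.Agent.P300.H14L2

namespace Sheets

variable {n N : ℕ} {L : Type} [TopologicalSpace L] [T2Space L] [SecondCountableTopology L]
  [MeasurableSpace L] [BorelSpace L] {S : Sheets n N L} {X Y : (Fin n → ℂ) × L → ℂ} {j : Fin n}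

/-- A trivialization of `M` over `W`. -/
structure SmTriv (S : Sheets n N L) (W : Set (Fin n → ℂ)) (s : Fin N → (Fin n → ℂ) → L) : Prop where
  isOpen : IsOpen W
  subset : W ⊆ S.V
  diff : ∀ i, ContinuousOn (s i) W
  inj : ∀ z ∈ W, Function.Injective (fun i => s i z)
  fib : ∀ z ∈ W, S.fib z = Finset.univ.image (fun i => s i z)

theorem SmTriv.sec {W : Set (Fin n → ℂ)} {s : Fin N → (Fin n → ℂ) → L} (h : S.SmTriv W s)
    (i : Fin N) : S.IsSection W (s i) where
  isOpen := h.isOpen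
  subset := h.subset
  cont := h.diff i
  mem := fun z hz => by
    rw [h.fib z hz]
    exact Finset.mem_image.2 ⟨i, Finset.mem_univ i, rfl⟩

theorem SmTriv.sum_eq {W : Set (Fin n → ℂ)} {s : Fin N → (Fin n → ℂ) → L} (h : S.SmTriv W s)
    {G : Type*} [AddCommMonoid G] (f : (Fin n → ℂ) × L → G) {z : Fin n → ℂ} (hz : z ∈ W) :
    ∑ w ∈ S.fib z, f (z, w) = ∑ i, f (z, s i z) := by
  rw [h.fib z hz, Finset.sum_image]
  intro i _ i' _ hii
  exact h.inj z hz hii

theorem sm_loc {z₀ : Fin n → ℂ} (hz : z₀ ∈ S.V) :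
    ∃ (W : Set (Fin n → ℂ)) (s : Fin N → (Fin n → ℂ) → L), S.SmTriv W s ∧ z₀ ∈ W := by
  obtain ⟨W, s, h1, h2, h3, h4, h5⟩ := S.loc z₀ hz
  exact ⟨W, s, ⟨h1, h3, h4, fun z hz => (h5 z hz).1, fun z hz => (h5 z hz).2⟩, h2⟩

/-- Countably many trivializations. -/
theorem sm_cover (S : Sheets n N L) : ∃ (ι : Type) (_ : Countable ι) (W : ι → Set (Fin n → ℂ))
    (s : ι → Fin N → (Fin n → ℂ) → L), (∀ k, S.SmTriv (W k) (s k)) ∧ ⋃ k, W k = S.V := by
  have h : ∀ z : S.V, ∃ (W : Set (Fin n → ℂ)) (s : Fin N → (Fin n → ℂ) → L),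
      S.SmTriv W s ∧ (z : Fin n → ℂ) ∈ W := fun z => sm_loc z.2
  choose W s hW using h
  obtain ⟨t, htV, htc, htU⟩ := TopologicalSpace.countable_cover_nhdsWithin
    (f := fun z => if h : z ∈ S.V then W ⟨z, h⟩ else ∅) (s := S.V)
    (fun z hz => mem_nhdsWithin_of_mem_nhds (by
      rw [dif_pos hz]
      exact (hW ⟨z, hz⟩).1.isOpen.mem_nhds (hW ⟨z, hz⟩).2))
  refine ⟨t, htc.to_subtype, fun k => W ⟨k, htV k.2⟩, fun k => s ⟨k, htV k.2⟩,
    fun k => (hW ⟨k, htV k.2⟩).1, ?_⟩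
  refine Set.Subset.antisymm (Set.iUnion_subset fun k => (hW ⟨k, htV k.2⟩).1.subset) ?_
  intro z hz
  obtain ⟨y, hy, hzy⟩ := Set.mem_iUnion₂.1 (htU hz)
  rw [dif_pos (htV hy)] at hzy
  exact Set.mem_iUnion.2 ⟨⟨y, hy⟩, hzy⟩

open Classical in
/-- A measurable extension of a section. -/
noncomputable def smExt {T : Type*} (W : Set (Fin n → ℂ)) (f : (Fin n → ℂ) → T) : (Fin n → ℂ) → T :=
  W.piecewise f (fun _ => f 0)

theorem smExt_eq {T : Type*} {W : Set (Fin n → ℂ)} (f : (Fin n → ℂ) → T) {z : Fin n → ℂ} (hz : z ∈ W) :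
    smExt W f z = f z := by
  classical
  unfold smExt
  exact Set.piecewise_eq_of_mem _ _ _ hz

theorem smExt_meas {T : Type*} [TopologicalSpace T] [MeasurableSpace T] [BorelSpace T]
    {W : Set (Fin n → ℂ)} (hW : IsOpen W) {f : (Fin n → ℂ) → T}
    (hf : ContinuousOn f W) : Measurable (smExt W f) := by
  classical
  unfold smExt
  exact hf.measurable_piecewise continuousOn_const hW.measurableSet

theorem SmTriv.ext_meas {W : Set (Fin n → ℂ)} {s : Fin N → (Fin n → ℂ) → L} (h : S.SmTriv W s)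
    (i : Fin N) : Measurable (smExt W (s i)) :=
  smExt_meas h.isOpen (h.diff i)

theorem sm_kernel (S : Sheets n N L) : AEMeasurable
    (fun z => ∑ w ∈ S.fib z, (Measure.dirac (z, w) : Measure ((Fin n → ℂ) × L)))
    (volume.restrict S.V) := by
  obtain ⟨ι, _, W, s, hW, hU⟩ := sm_cover S
  rw [← hU, aemeasurable_iUnion_iff]
  intro k
  refine ⟨fun z => ∑ i, Measure.dirac (z, smExt (W k) (s k i) z), ?_, ?_⟩
  · refine Finset.measurable_sum _ fun i _ => ?_
    exact Measure.measurable_dirac.comp (measurable_id.prodMk ((hW k).ext_meas i))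
  · refine (ae_restrict_iff' (hW k).isOpen.measurableSet).2 (Eventually.of_forall fun z hz => ?_)
    refine ((hW k).sum_eq (fun q => (Measure.dirac q : Measure ((Fin n → ℂ) × L))) hz).trans ?_
    refine Finset.sum_congr rfl fun i _ => ?_
    rw [smExt_eq _ hz]

theorem sm_meas_sum {G : Type*} [AddCommMonoid G] [MeasurableSpace G] [MeasurableAdd₂ G]
    {f : (Fin n → ℂ) × L → G} (hf : Measurable f) :
    AEMeasurable (fun z => ∑ w ∈ S.fib z, f (z, w)) (volume.restrict S.V) := by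
  obtain ⟨ι, _, W, s, hW, hU⟩ := sm_cover S
  rw [← hU, aemeasurable_iUnion_iff]
  intro k
  refine ⟨fun z => ∑ i, f (z, smExt (W k) (s k i) z), ?_, ?_⟩
  · refine Finset.measurable_sum _ fun i _ => ?_
    exact hf.comp (measurable_id.prodMk ((hW k).ext_meas i))
  · refine (ae_restrict_iff' (hW k).isOpen.measurableSet).2 (Eventually.of_forall fun z hz => ?_)
    refine ((hW k).sum_eq f hz).trans ?_
    refine Finset.sum_congr rfl fun i _ => ?_
    rw [smExt_eq _ hz]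

/-- integrals against `μ` of functions measurable along the sheets. -/
theorem lintegral_μ' {Ψ : (Fin n → ℂ) × L → ℝ≥0∞} (hΨ : AEMeasurable Ψ S.μ) :
    ∫⁻ q, Ψ q ∂S.μ = ∫⁻ z in S.V, ∑ w ∈ S.fib z, Ψ (z, w) := by
  unfold μ at hΨ ⊢
  rw [Measure.lintegral_bind (sm_kernel S) hΨ]
  refine lintegral_congr fun z => ?_
  rw [lintegral_finsetSum_measure]
  refine Finset.sum_congr rfl fun w _ => ?_
  rw [lintegral_dirac]

theorem lintegral_μ {Ψ : (Fin n → ℂ) × L → ℝ≥0∞} (hΨ : Measurable Ψ) :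
    ∫⁻ q, Ψ q ∂S.μ = ∫⁻ z in S.V, ∑ w ∈ S.fib z, Ψ (z, w) := lintegral_μ' hΨ.aemeasurable

/-- The graph of a section. -/
def smGraph (W : Set (Fin n → ℂ)) (f : (Fin n → ℂ) → L) : Set ((Fin n → ℂ) × L) :=
  {q | q.1 ∈ W ∧ q.2 = f q.1}

theorem smGraph_meas {W : Set (Fin n → ℂ)} (hW : IsOpen W) {f : (Fin n → ℂ) → L}
    (hf : ContinuousOn f W) : MeasurableSet (smGraph W f) := by
  have h : smGraph W f = (Prod.fst ⁻¹' W) ∩ {q : (Fin n → ℂ) × L | q.2 = smExt W f q.1} := by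
    ext q
    constructor
    · rintro ⟨h1, h2⟩
      refine ⟨h1, ?_⟩
      show q.2 = smExt W f q.1
      rw [smExt_eq _ h1, h2]
    · rintro ⟨h1, h2⟩
      have h0 : q.1 ∈ W := h1
      refine ⟨h0, ?_⟩
      have h3 : q.2 = smExt W f q.1 := h2
      rw [h3, smExt_eq _ h0]
  rw [h]
  exact (measurable_fst hW.measurableSet).inter
    (measurableSet_eq_fun measurable_snd ((smExt_meas hW hf).comp measurable_fst))

/-- `M` is a countable union of graphs of sections. -/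
theorem sm_graphs (S : Sheets n N L) : ∃ (ι : Type) (_ : Countable ι) (W : ι → Set (Fin n → ℂ))
    (s : ι → (Fin n → ℂ) → L), (∀ k, S.IsSection (W k) (s k)) ∧ ⋃ k, smGraph (W k) (s k) = S.M := by
  obtain ⟨ι, hι, W, s, hW, hU⟩ := sm_cover S
  refine ⟨ι × Fin N, inferInstance, fun k => W k.1, fun k => s k.1 k.2,
    fun k => (hW k.1).sec k.2, ?_⟩
  ext q
  constructor
  · intro hq
    obtain ⟨k, h1, h2⟩ := Set.mem_iUnion.1 hq
    refine ⟨(hW k.1).subset h1, ?_⟩
    rw [h2]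
    exact ((hW k.1).sec k.2).mem q.1 h1
  · rintro ⟨h1, h2⟩
    rw [← hU] at h1
    obtain ⟨k, hk⟩ := Set.mem_iUnion.1 h1
    rw [(hW k).fib q.1 hk, Finset.mem_image] at h2
    obtain ⟨i, _, hi⟩ := h2
    exact Set.mem_iUnion.2 ⟨(k, i), hk, hi.symm⟩

theorem measurableSet_M : MeasurableSet S.M := by
  obtain ⟨ι, _, W, s, hW, hU⟩ := sm_graphs S
  rw [← hU]
  exact MeasurableSet.iUnion fun k => smGraph_meas (hW k).isOpen (hW k).cont

theorem sm_null_of_fib {T : Set ((Fin n → ℂ) × L)} (hT : MeasurableSet T)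
    (h : ∀ᵐ z ∂(volume.restrict S.V), ∀ w ∈ S.fib z, (z, w) ∉ T) : S.μ T = 0 := by
  have h1 : S.μ T = ∫⁻ q, T.indicator 1 q ∂S.μ := by
    rw [lintegral_indicator_one hT]
  rw [h1, lintegral_μ (measurable_one.indicator hT)]
  rw [lintegral_congr_ae (g := fun _ => 0), lintegral_zero]
  filter_upwards [h] with z hz
  refine Finset.sum_eq_zero fun w hw => ?_
  exact Set.indicator_of_notMem (hz w hw) _

theorem ae_μ_iff {P : (Fin n → ℂ) × L → Prop} :
    (∀ᵐ q ∂S.μ, P q) ↔ ∀ᵐ z ∂(volume.restrict S.V), ∀ w ∈ S.fib z, P (z, w) := by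
  constructor
  · intro h
    have h1 := Measure.ae_ae_of_ae_bind (sm_kernel S) h
    filter_upwards [h1] with z hz w hw
    rw [ae_iff, Measure.finsetSum_apply, Finset.sum_eq_zero_iff] at hz
    have h2 := hz w hw
    by_contra hP
    have h3 : (z, w) ∈ {a | ¬P a} := hP
    rw [Measure.dirac_apply_of_mem h3] at h2
    exact one_ne_zero h2
  · intro h
    set Z := toMeasurable (volume.restrict S.V) {z | ¬ ∀ w ∈ S.fib z, P (z, w)} with hZ
    have hZ0 : (volume.restrict S.V) Z = 0 := by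
      rw [hZ, measure_toMeasurable]
      exact h
    have hZ1 : ∀ᵐ z ∂(volume.restrict S.V), z ∉ Z := measure_eq_zero_iff_ae_notMem.1 hZ0
    have hT : S.μ ((Prod.fst ⁻¹' Z) ∪ S.Mᶜ) = 0 := by
      refine sm_null_of_fib ((measurable_fst (measurableSet_toMeasurable _ _)).union
        measurableSet_M.compl) ?_
      have hV : ∀ᵐ z ∂(volume.restrict S.V), z ∈ S.V :=
        ae_restrict_mem S.isOpen.measurableSet
      filter_upwards [hZ1, hV] with z hz hzV w hw
      rintro (h1 | h1)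
      · exact hz h1
      · exact h1 ⟨hzV, hw⟩
    refine measure_mono_null ?_ hT
    intro q hq
    by_contra hq'
    have h1 : q.1 ∉ Z := fun h => hq' (Or.inl h)
    have h2 : q ∈ S.M := by
      by_contra h
      exact hq' (Or.inr h)
    have h3 : ∀ w ∈ S.fib q.1, P (q.1, w) := by
      by_contra h4
      exact h1 (subset_toMeasurable _ _ h4)
    exact hq (h3 q.2 h2.2)

theorem ae_mem_M : ∀ᵐ q ∂S.μ, q ∈ S.M := by
  rw [ae_μ_iff]
  filter_upwards [ae_restrict_mem S.isOpen.measurableSet] with z hz w hw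
  exact ⟨hz, hw⟩

theorem aestronglyMeasurable_of_CD (hX : S.CD 0 X) : AEStronglyMeasurable X S.μ := by
  obtain ⟨ι, _, W, s, hW, hU⟩ := sm_graphs S
  have h1 : S.μ.restrict S.M = S.μ := Measure.restrict_eq_self_of_ae_mem ae_mem_M
  rw [← h1, ← hU, aestronglyMeasurable_iUnion_iff]
  intro k
  have hc : ContinuousOn (fun z => X (z, s k z)) (W k) := (hX (W k) (s k) (hW k)).continuousOn
  refine ⟨fun q => smExt (W k) (fun z => X (z, s k z)) q.1,
    ((smExt_meas (hW k).isOpen hc).comp measurable_fst).stronglyMeasurable, ?_⟩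
  refine (ae_restrict_iff' (smGraph_meas (hW k).isOpen (hW k).cont)).2
    (Eventually.of_forall fun q hq => ?_)
  show X q = smExt (W k) (fun z => X (z, s k z)) q.1
  rw [smExt_eq _ hq.1, ← hq.2]

theorem sm_fsum_aesm {G : Type*} [NormedAddCommGroup G] [MeasurableSpace G] [BorelSpace G]
    [SecondCountableTopology G]
    {f : (Fin n → ℂ) × L → G} (hf : AEStronglyMeasurable f S.μ) :
    AEStronglyMeasurable (fun z => ∑ w ∈ S.fib z, f (z, w)) (volume.restrict S.V) := by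
  have h1 : AEMeasurable (fun z => ∑ w ∈ S.fib z, hf.mk f (z, w)) (volume.restrict S.V) :=
    sm_meas_sum hf.stronglyMeasurable_mk.measurable
  refine h1.aestronglyMeasurable.congr ?_
  have h2 := ae_μ_iff.1 hf.ae_eq_mk
  filter_upwards [h2] with z hz
  exact Finset.sum_congr rfl fun w hw => (hz w hw).symm

theorem sm_integrable {G : Type*} [NormedAddCommGroup G] [MeasurableSpace G] [BorelSpace G]
    [SecondCountableTopology G]
    {f : (Fin n → ℂ) × L → G} (hf : Integrable f S.μ) :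
    IntegrableOn (fun z => ∑ w ∈ S.fib z, f (z, w)) S.V := by
  refine ⟨sm_fsum_aesm hf.1, ?_⟩
  have h1 := hf.2
  rw [HasFiniteIntegral, lintegral_μ' hf.1.enorm] at h1
  rw [HasFiniteIntegral]
  refine (lintegral_mono fun z => ?_).trans_lt h1
  exact enorm_sum_le _ _

theorem integrable_fsum (hX : Integrable X S.μ) : IntegrableOn (S.fsum X) S.V :=
  sm_integrable hX

theorem sm_integral_nonneg {f : (Fin n → ℂ) × L → ℝ} (hf : Integrable f S.μ)
    (h0 : ∀ q, 0 ≤ f q) : ∫ q, f q ∂S.μ = ∫ z in S.V, ∑ w ∈ S.fib z, f (z, w) := by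
  rw [integral_eq_lintegral_of_nonneg_ae (Eventually.of_forall h0) hf.1,
    integral_eq_lintegral_of_nonneg_ae
      (Eventually.of_forall fun z => Finset.sum_nonneg fun w _ => h0 (z, w)) (sm_fsum_aesm hf.1),
    lintegral_μ' hf.1.aemeasurable.ennreal_ofReal]
  congr 1
  refine lintegral_congr fun z => ?_
  rw [ENNReal.ofReal_sum_of_nonneg fun w _ => h0 (z, w)]

theorem sm_integral_real {f : (Fin n → ℂ) × L → ℝ} (hf : Integrable f S.μ) :
    ∫ q, f q ∂S.μ = ∫ z in S.V, ∑ w ∈ S.fib z, f (z, w) := by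
  have h1 := sm_integral_nonneg hf.pos_part (fun q => le_max_right _ _)
  have h2 := sm_integral_nonneg hf.neg_part (fun q => le_max_right _ _)
  have h3 : ∀ q, f q = max (f q) 0 - max (-f q) 0 := fun q => (max_zero_sub_eq_self (f q)).symm
  have e1 : ∫ q, f q ∂S.μ = ∫ q, (max (f q) 0 - max (-f q) 0) ∂S.μ :=
    integral_congr_ae (Eventually.of_forall h3)
  have e2 : ∫ z in S.V, ∑ w ∈ S.fib z, f (z, w) =
      ∫ z in S.V, ((∑ w ∈ S.fib z, max (f (z, w)) 0) - ∑ w ∈ S.fib z, max (-f (z, w)) 0) := by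
    refine integral_congr_ae (Eventually.of_forall fun z => ?_)
    show ∑ w ∈ S.fib z, f (z, w) =
      (∑ w ∈ S.fib z, max (f (z, w)) 0) - ∑ w ∈ S.fib z, max (-f (z, w)) 0
    rw [← Finset.sum_sub_distrib]
    exact Finset.sum_congr rfl fun w _ => h3 (z, w)
  rw [e1, e2, integral_sub hf.pos_part hf.neg_part,
    integral_sub (sm_integrable hf.pos_part) (sm_integrable hf.neg_part), h1, h2]

theorem integral_μ (hX : Integrable X S.μ) : ∫ q, X q ∂S.μ = ∫ z in S.V, S.fsum X z := by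
  have h1 := sm_integral_real hX.re
  have h2 := sm_integral_real hX.im
  have h3 := integral_re_add_im hX
  have h4 := integral_re_add_im (𝕜 := ℂ) (integrable_fsum hX)
  rw [← h3, ← h4]
  have e1 : ∀ z, RCLike.re (S.fsum X z) = ∑ w ∈ S.fib z, RCLike.re (X (z, w)) := by
    intro z
    unfold fsum
    exact map_sum RCLike.re _ _
  have e2 : ∀ z, RCLike.im (S.fsum X z) = ∑ w ∈ S.fib z, RCLike.im (X (z, w)) := by
    intro z
    unfold fsum
    exact map_sum RCLike.im _ _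
  simp only [e1, e2]
  rw [h1, h2]

/-- Locally finite. -/
theorem μ_lt_top {C : Set (Fin n → ℂ)} (hC : IsCompact C) (hCV : C ⊆ S.V) :
    S.μ {q | q.1 ∈ C} < ⊤ := by
  have hm : MeasurableSet {q : (Fin n → ℂ) × L | q.1 ∈ C} := measurable_fst hC.measurableSet
  rw [← lintegral_indicator_one hm, lintegral_μ (measurable_one.indicator hm)]
  have h1 : ∫⁻ z in S.V, ∑ w ∈ S.fib z,
      ({q : (Fin n → ℂ) × L | q.1 ∈ C}.indicator 1 (z, w) : ℝ≥0∞) ≤
      ∫⁻ z in S.V, C.indicator (fun _ => (N : ℝ≥0∞)) z := by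
    refine lintegral_mono_ae ?_
    filter_upwards [ae_restrict_mem S.isOpen.measurableSet] with z hz
    by_cases hzC : z ∈ C
    · rw [Set.indicator_of_mem hzC]
      calc ∑ w ∈ S.fib z, ({q : (Fin n → ℂ) × L | q.1 ∈ C}.indicator 1 (z, w) : ℝ≥0∞)
          ≤ ∑ w ∈ S.fib z, (1 : ℝ≥0∞) := Finset.sum_le_sum fun w _ =>
            Set.indicator_le_self _ (1 : (Fin n → ℂ) × L → ℝ≥0∞) (z, w)
        _ = (N : ℝ≥0∞) := by rw [Finset.sum_const, card_fib hz, nsmul_eq_mul, mul_one]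
    · rw [Set.indicator_of_notMem hzC]
      refine le_of_eq (Finset.sum_eq_zero fun w _ => ?_)
      have hn : (z, w) ∉ {q : (Fin n → ℂ) × L | q.1 ∈ C} := hzC
      exact Set.indicator_of_notMem hn _
  refine h1.trans_lt ?_
  refine (lintegral_mono' Measure.restrict_le_self le_rfl).trans_lt ?_
  rw [lintegral_indicator_const hC.measurableSet]
  exact ENNReal.mul_lt_top (ENNReal.natCast_lt_top N) hC.measure_lt_top

/-- Continuous functions are bounded over compact sets. -/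
theorem exists_bound (hX : S.CD 0 X) {C : Set (Fin n → ℂ)} (hC : IsCompact C) (hCV : C ⊆ S.V) :
    ∃ B : ℝ, ∀ q ∈ S.M, q.1 ∈ C → ‖X q‖ ≤ B := by
  refine hC.induction_on (p := fun C => ∃ B : ℝ, ∀ q ∈ S.M, q.1 ∈ C → ‖X q‖ ≤ B) ?_ ?_ ?_ ?_
  · exact ⟨0, fun q _ h => absurd h (Set.notMem_empty _)⟩
  · rintro s t hst ⟨B, hB⟩
    exact ⟨B, fun q hq h => hB q hq (hst h)⟩
  · rintro s t ⟨B, hB⟩ ⟨B', hB'⟩
    refine ⟨max B B', fun q hq h => ?_⟩
    rcases h with h | h
    · exact (hB q hq h).trans (le_max_left _ _)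
    · exact (hB' q hq h).trans (le_max_right _ _)
  · intro z₀ hz₀
    obtain ⟨W, s, hW, hzW⟩ := sm_loc (hCV hz₀)
    have hc : ∀ i, ContinuousAt (fun z => X (z, s i z)) z₀ := fun i =>
      ((hX W (s i) (hW.sec i)).continuousOn).continuousAt (hW.isOpen.mem_nhds hzW)
    have h1 : ∀ᶠ z in 𝓝 z₀, z ∈ W ∧ ∀ i, ‖X (z, s i z)‖ < ‖X (z₀, s i z₀)‖ + 1 := by
      have h2 : ∀ᶠ z in 𝓝 z₀, z ∈ W := hW.isOpen.mem_nhds hzW
      refine h2.and (eventually_all.2 fun i => ?_)
      exact (hc i).norm.eventually (gt_mem_nhds (lt_add_one _))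
    refine ⟨_, mem_nhdsWithin_of_mem_nhds h1, ∑ i, (‖X (z₀, s i z₀)‖ + 1), ?_⟩
    intro q hq hqz
    obtain ⟨h2, h3⟩ := hqz
    have h4 := hq.2
    rw [hW.fib q.1 h2, Finset.mem_image] at h4
    obtain ⟨i, _, hi⟩ := h4
    have h5 : q = (q.1, s i q.1) := Prod.ext rfl hi.symm
    rw [h5]
    refine (h3 i).le.trans ?_
    exact Finset.single_le_sum (f := fun i => ‖X (z₀, s i z₀)‖ + 1)
      (fun i _ => by positivity) (Finset.mem_univ i)

theorem exists_pos_bound {u : (Fin n → ℂ) × L → ℝ} (hu : S.CD 0 (fun q => (u q : ℂ)))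
    (hpos : ∀ q ∈ S.M, 0 < u q) {C : Set (Fin n → ℂ)} (hC : IsCompact C) (hCV : C ⊆ S.V) :
    ∃ B : ℝ, 0 < B ∧ ∀ q ∈ S.M, q.1 ∈ C → B ≤ u q := by
  have hi : S.CD 0 (fun q => ((u q)⁻¹ : ℝ)) := by
    intro W s hW
    have h1 := (hu W s hW).continuousOn
    have h2 : ContinuousOn (fun z => ((u (z, s z) : ℂ))⁻¹) W := by
      refine h1.inv₀ fun z hz => ?_
      have h3 := hpos (z, s z) ⟨hW.subset hz, hW.mem z hz⟩
      show ((u (z, s z) : ℝ) : ℂ) ≠ 0
      exact_mod_cast h3.ne'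
    refine contDiffOn_zero.2 (h2.congr fun z _ => ?_)
    push_cast
    rfl
  obtain ⟨B, hB⟩ := exists_bound hi hC hCV
  refine ⟨(max B 1)⁻¹, by positivity, fun q hq hqC => ?_⟩
  have h1 := hB q hq hqC
  have h2 := hpos q hq
  rw [Complex.norm_real, Real.norm_eq_abs, abs_of_pos (inv_pos.2 h2)] at h1
  rw [inv_le_comm₀ (by positivity) h2]
  exact h1.trans (le_max_left _ _)

theorem integrable_of_supp (hX : S.CD 0 X) (hs : S.Supp X) : Integrable X S.μ := by
  obtain ⟨C, hC, hCV, h0⟩ := hs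
  obtain ⟨B, hB⟩ := exists_bound hX hC hCV
  have hm : MeasurableSet {q : (Fin n → ℂ) × L | q.1 ∈ C} := measurable_fst hC.measurableSet
  have h1 : IntegrableOn X {q : (Fin n → ℂ) × L | q.1 ∈ C} S.μ := by
    refine IntegrableOn.of_bound (μ_lt_top hC hCV)
      (aestronglyMeasurable_of_CD hX).restrict B ?_
    refine (ae_restrict_iff' hm).2 ?_
    filter_upwards [ae_mem_M (S := S)] with q hq hqC
    exact hB q hq hqC
  exact (integrableOn_iff_integrable_of_support_subset (fun q hq => by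
    by_contra h
    exact hq (h0 q h))).1 h1

theorem sm_supp_D (hs : S.Supp X) : S.Supp (S.D j X) := by
  obtain ⟨C, hC, hCV, h0⟩ := hs
  refine ⟨C, hC, hCV, fun q hq => ?_⟩
  have h1 : (fun z => X (z, S.sec q z)) =ᶠ[𝓝 q.1] fun _ => 0 := by
    filter_upwards [hC.isClosed.isOpen_compl.mem_nhds hq] with z hz
    exact h0 _ hz
  show dz j (fun z => X (z, S.sec q z)) q.1 = 0
  rw [dz_congr h1, dz_const]

theorem sm_supp_Db (hs : S.Supp X) : S.Supp (S.Db j X) := by
  obtain ⟨C, hC, hCV, h0⟩ := hs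
  refine ⟨C, hC, hCV, fun q hq => ?_⟩
  have h1 : (fun z => X (z, S.sec q z)) =ᶠ[𝓝 q.1] fun _ => 0 := by
    filter_upwards [hC.isClosed.isOpen_compl.mem_nhds hq] with z hz
    exact h0 _ hz
  show dzb j (fun z => X (z, S.sec q z)) q.1 = 0
  rw [dzb_congr h1, dzb_const]

theorem sm_fsum_zero {C : Set (Fin n → ℂ)} (hC : IsClosed C)
    (h0 : ∀ q : (Fin n → ℂ) × L, q.1 ∉ C → X q = 0) {z : Fin n → ℂ} (hz : z ∉ C) :
    S.fsum X =ᶠ[𝓝 z] fun _ => 0 := by
  filter_upwards [hC.isOpen_compl.mem_nhds hz] with y hy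
  exact Finset.sum_eq_zero fun w _ => h0 _ hy

theorem integral_D (hX : S.CD 1 X) (hs : S.Supp X) : ∫ q, S.D j X q ∂S.μ = 0 := by
  have hs' := hs
  obtain ⟨C, hC, hCV, h0⟩ := hs'
  have h1 : S.CD 0 (S.D j X) := CD.D (m := 0) hX
  rw [integral_μ (integrable_of_supp h1 (sm_supp_D hs))]
  have h2 : ∫ z in S.V, S.fsum (S.D j X) z = ∫ z in S.V, dz j (S.fsum X) z :=
    setIntegral_congr_fun S.isOpen.measurableSet fun z hz => (dz_fsum hX hz).symm
  have h3 : ∫ z in S.V, dz j (S.fsum X) z = ∫ z, dz j (S.fsum X) z := by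
    refine setIntegral_eq_integral_of_forall_compl_eq_zero fun z hz => ?_
    rw [dz_congr (sm_fsum_zero hC.isClosed h0 (fun h => hz (hCV h))), dz_const]
  rw [h2, h3, integral_dz (contDiff_fsum hX hs) (hasCompactSupport_fsum hs)]

theorem integral_Db (hX : S.CD 1 X) (hs : S.Supp X) : ∫ q, S.Db j X q ∂S.μ = 0 := by
  have hs' := hs
  obtain ⟨C, hC, hCV, h0⟩ := hs'
  have h1 : S.CD 0 (S.Db j X) := CD.Db (m := 0) hX
  rw [integral_μ (integrable_of_supp h1 (sm_supp_Db hs))]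
  have h2 : ∫ z in S.V, S.fsum (S.Db j X) z = ∫ z in S.V, dzb j (S.fsum X) z :=
    setIntegral_congr_fun S.isOpen.measurableSet fun z hz => (dzb_fsum hX hz).symm
  have h3 : ∫ z in S.V, dzb j (S.fsum X) z = ∫ z, dzb j (S.fsum X) z := by
    refine setIntegral_eq_integral_of_forall_compl_eq_zero fun z hz => ?_
    rw [dzb_congr (sm_fsum_zero hC.isClosed h0 (fun h => hz (hCV h))), dzb_const]
  rw [h2, h3, integral_dzb (contDiff_fsum hX hs) (hasCompactSupport_fsum hs)]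

theorem sm_supp_mul (hs : S.Supp Y) : S.Supp (fun q => X q * Y q) := by
  obtain ⟨C, hC, hCV, h0⟩ := hs
  refine ⟨C, hC, hCV, fun q hq => ?_⟩
  show X q * Y q = 0
  rw [h0 q hq, mul_zero]

/-- Integration by parts. -/
theorem integral_mul_D (hX : S.CD 1 X) (hY : S.CD 1 Y) (hs : S.Supp Y) :
    ∫ q, X q * S.D j Y q ∂S.μ = - ∫ q, S.D j X q * Y q ∂S.μ := by
  have h0 := integral_D (j := j) (hX.mul hY) (sm_supp_mul (X := X) hs)
  have i1 : Integrable (fun q => X q * S.D j Y q) S.μ :=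
    integrable_of_supp ((hX.mono (Nat.zero_le 1)).mul (CD.D (m := 0) hY))
      (sm_supp_mul (sm_supp_D hs))
  have i2 : Integrable (fun q => S.D j X q * Y q) S.μ :=
    integrable_of_supp ((CD.D (m := 0) hX).mul (hY.mono (Nat.zero_le 1))) (sm_supp_mul hs)
  have h1 : ∫ q, S.D j (fun q => X q * Y q) q ∂S.μ =
      ∫ q, (S.D j X q * Y q + X q * S.D j Y q) ∂S.μ := by
    refine integral_congr_ae ?_
    filter_upwards [ae_mem_M (S := S)] with q hq
    exact D_mul hX hY hq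
  rw [h1, integral_add i2 i1] at h0
  linear_combination h0

theorem integral_mul_Db (hX : S.CD 1 X) (hY : S.CD 1 Y) (hs : S.Supp Y) :
    ∫ q, X q * S.Db j Y q ∂S.μ = - ∫ q, S.Db j X q * Y q ∂S.μ := by
  have h0 := integral_Db (j := j) (hX.mul hY) (sm_supp_mul (X := X) hs)
  have i1 : Integrable (fun q => X q * S.Db j Y q) S.μ :=
    integrable_of_supp ((hX.mono (Nat.zero_le 1)).mul (CD.Db (m := 0) hY))
      (sm_supp_mul (sm_supp_Db hs))
  have i2 : Integrable (fun q => S.Db j X q * Y q) S.μ :=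
    integrable_of_supp ((CD.Db (m := 0) hX).mul (hY.mono (Nat.zero_le 1))) (sm_supp_mul hs)
  have h1 : ∫ q, S.Db j (fun q => X q * Y q) q ∂S.μ =
      ∫ q, (S.Db j X q * Y q + X q * S.Db j Y q) ∂S.μ := by
    refine integral_congr_ae ?_
    filter_upwards [ae_mem_M (S := S)] with q hq
    exact Db_mul hX hY hq
  rw [h1, integral_add i2 i1] at h0
  linear_combination h0

end Sheets

end Vale.Agent.P300.H14L2
end
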